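import Vale.Agent.Lib.P004.Defs
import Vale.Agent.Lib.P004.Transfer

namespace Vale.Agent.Results.P004.OrderingTransfer

open Filter Topology Vale.Agent.Lib.P004

open Classical in
/-- Transfer of a density statement from the ordering by all integers `d` with `|d| ≤ N`
(the signed-integer ordering of twist parameters) to the ordering by fundamental discriminants:
if a property `P` of integers is invariant under multiplication by nonzero squares and has
relative density `δ` among the integers `|d| ≤ N` in each of the residue classes `1, 2, 3`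
modulo `4`, then `P` has relative density `δ` among the fundamental discriminants `D ≠ 1` with
`|D| ≤ X`. -/
theorem result (P : ℤ → Prop) (δ : ℝ)
    (hP : ∀ m d : ℤ, m ≠ 0 → d ≠ 0 → (P (m ^ 2 * d) ↔ P d))
    (h : ∀ r : ℤ, r = 1 ∨ r = 2 ∨ r = 3 →
      Tendsto (fun N : ℕ =>
        (((Finset.Icc (-(N : ℤ)) (N : ℤ)).filter (fun d => d % 4 = r ∧ P d)).card : ℝ) /
          (((Finset.Icc (-(N : ℤ)) (N : ℤ)).filter (fun d => d % 4 = r)).card : ℝ))
        atTop (𝓝 δ)) :
    Tendsto (propFD P) atTop (𝓝 δ) :=
  transfer P δ hP h

end Vale.Agent.Results.P004.OrderingTransfer
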