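import Vale.Agent.Lib.P004.Defs
import Vale.Agent.Lib.P004.Formal
import Vale.Agent.Lib.P004.Transfer

namespace Vale.Agent.Results.P004.Q1Reduction

open Filter Topology Vale.Agent.Lib.P004

/-- Reduction of both forms of Goldfeld's conjecture (in the ordering by fundamental
discriminants) to density statements in the signed-integer ordering: for a rank function `a` on
twist parameters that is invariant under multiplication by nonzero squares, if the values `0` and
`1` each have relative density `1/2` among the integers `|d| ≤ N` in each of the residue classes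
`1, 2, 3` modulo `4`, then they have density `1/2` among the fundamental discriminants `D ≠ 1`,
`|D| ≤ X`; if moreover the mean square of `a` over these discriminants is bounded, the mean of `a`
tends to `1/2`. -/
theorem result (a : ℤ → ℕ)
    (ha : ∀ m d : ℤ, m ≠ 0 → d ≠ 0 → a (m ^ 2 * d) = a d)
    (hdens : ∀ j : ℕ, j = 0 ∨ j = 1 → ∀ r : ℤ, r = 1 ∨ r = 2 ∨ r = 3 →
      Tendsto (fun N : ℕ =>
        (((Finset.Icc (-(N : ℤ)) (N : ℤ)).filter (fun d => d % 4 = r ∧ a d = j)).card : ℝ) /
          (((Finset.Icc (-(N : ℤ)) (N : ℤ)).filter (fun d => d % 4 = r)).card : ℝ))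
        atTop (𝓝 (1 / 2))) :
    (Tendsto (propFD (fun D => a D = 0)) atTop (𝓝 (1 / 2)) ∧
      Tendsto (propFD (fun D => a D = 1)) atTop (𝓝 (1 / 2))) ∧
    (∀ C : ℝ, (∀ X : ℕ, ∑ D ∈ fundDiscs X, (a D : ℝ) ^ 2 ≤ C * ((fundDiscs X).card : ℝ)) →
      Tendsto (meanFD a) atTop (𝓝 (1 / 2))) := by
  have h' : ∀ j : ℕ, j = 0 ∨ j = 1 → Tendsto (propFD (fun D => a D = j)) atTop (𝓝 (1 / 2)) := by
    intro j hj
    apply transfer (fun d => a d = j) (1 / 2) (fun m d hm hd => by rw [ha m d hm hd])
    intro r hr
    convert hdens j hj r hr using 5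
    · unfold cnt; congr
    · unfold cnt; congr
  have h0 := h' 0 (Or.inl rfl)
  have h1 := h' 1 (Or.inr rfl)
  refine ⟨⟨h0, h1⟩, fun C h2 => ?_⟩
  exact @dens_imp_avg ℤ a (fun _ => Classical.propDecidable _) (fun _ => Classical.propDecidable _)
      (fun _ => Classical.propDecidable _) fundDiscs C h2 h0 h1

end Vale.Agent.Results.P004.Q1Reduction
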