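import Vale.Agent.Lib.P004.Defs
import Vale.Agent.Lib.P004.Formal

namespace Vale.Agent.Results.P004.TwoFormsEquiv

open Filter Topology Vale.Agent.Lib.P004

/-- Relation between the two forms of Goldfeld's conjecture over the family of fundamental
discriminants `D ≠ 1` ordered by `|D|`, for an arbitrary rank function `a` whose parity is
equidistributed: the average form implies the density form, and, if the mean square of `a` over
the family stays bounded, the density form implies the average form. -/
theorem result (a : ℤ → ℕ)
    (hpar : Tendsto (propFD (fun D => Even (a D))) atTop (𝓝 (1 / 2))) :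
    (Tendsto (meanFD a) atTop (𝓝 (1 / 2)) →
      Tendsto (propFD (fun D => a D = 0)) atTop (𝓝 (1 / 2)) ∧
      Tendsto (propFD (fun D => a D = 1)) atTop (𝓝 (1 / 2))) ∧
    (∀ C : ℝ, (∀ X : ℕ, ∑ D ∈ fundDiscs X, (a D : ℝ) ^ 2 ≤ C * ((fundDiscs X).card : ℝ)) →
      Tendsto (propFD (fun D => a D = 0)) atTop (𝓝 (1 / 2)) →
      Tendsto (propFD (fun D => a D = 1)) atTop (𝓝 (1 / 2)) →
      Tendsto (meanFD a) atTop (𝓝 (1 / 2))) := by
  refine ⟨fun havg => ?_, fun C h2 hz hu => ?_⟩
  · exact @avg_imp_dens ℤ a (fun _ => Classical.propDecidable _) (fun _ => Classical.propDecidable _)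
      (fun _ => Classical.propDecidable _) fundDiscs hpar havg
  · exact @dens_imp_avg ℤ a (fun _ => Classical.propDecidable _) (fun _ => Classical.propDecidable _)
      (fun _ => Classical.propDecidable _) fundDiscs C h2 hz hu

end Vale.Agent.Results.P004.TwoFormsEquiv
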